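import Vale.Agent.P237.All.Finite.Cells.C13A1
import Vale.Agent.P237.All.Finite.Cells.C13A2
import Vale.Agent.P237.All.Finite.Cells.C13A2b
import Vale.Agent.P237.All.Finite.Cells.C13B
import Vale.Agent.P237.All.Finite.Cells.C13B2
import Vale.Agent.P237.All.Finite.Cells.C13C
import Vale.Agent.P237.All.Finite.Cells.C13D

/-! P237, finitely many dimensions: the excesses below `5/2` in dimension thirteen. -/

namespace Vale.Agent.P237.All.Finite

open Data

/-- The bound for every excess in `[1/50, 5/2)` at `m = 13`. -/
theorem rangeOk_thirteen : RangeOk 12 (1 / 50) (5 / 2) := by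
  refine rangeOk_cells (l := [cell13A1, cell13A2, cell13A2b, cell13B, cell13B2, cell13C, cell13D]) (by norm_num) ?_ (by decide +kernel)
  simp only [List.forall_mem_cons, List.not_mem_nil, IsEmpty.forall_iff, implies_true, and_true]
  exact ⟨cell13A1_ok, cell13A2_ok, cell13A2b_ok, cell13B_ok, cell13B2_ok, cell13C_ok, cell13D_ok⟩

end Vale.Agent.P237.All.Finite
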