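import Vale.Agent.P237.All.Finite.Cells.C16A1
import Vale.Agent.P237.All.Finite.Cells.C16A2
import Vale.Agent.P237.All.Finite.Cells.C16A3
import Vale.Agent.P237.All.Finite.Cells.C16B
import Vale.Agent.P237.All.Finite.Cells.C16B2
import Vale.Agent.P237.All.Finite.Cells.C16C
import Vale.Agent.P237.All.Finite.Cells.C16D

/-! P237, finitely many dimensions: the excesses below `5/2` in dimension sixteen. -/

namespace Vale.Agent.P237.All.Finite

open Data

/-- The bound for every excess in `[1/50, 5/2)` at `m = 16`. -/
theorem rangeOk_sixteen : RangeOk 15 (1 / 50) (5 / 2) := by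
  refine rangeOk_cells (l := [cell16A1, cell16A2, cell16A3, cell16B, cell16B2, cell16C, cell16D]) (by norm_num) ?_ (by decide +kernel)
  simp only [List.forall_mem_cons, List.not_mem_nil, IsEmpty.forall_iff, implies_true, and_true]
  exact ⟨cell16A1_ok, cell16A2_ok, cell16A3_ok, cell16B_ok, cell16B2_ok, cell16C_ok, cell16D_ok⟩

end Vale.Agent.P237.All.Finite
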