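import Vale.Agent.P237.All.Finite.Cells.C17A1
import Vale.Agent.P237.All.Finite.Cells.C17A2
import Vale.Agent.P237.All.Finite.Cells.C17A3
import Vale.Agent.P237.All.Finite.Cells.C17B
import Vale.Agent.P237.All.Finite.Cells.C17B2
import Vale.Agent.P237.All.Finite.Cells.C17C
import Vale.Agent.P237.All.Finite.Cells.C17D

/-! P237, finitely many dimensions: the excesses below `5/2` in dimension seventeen. -/

namespace Vale.Agent.P237.All.Finite

open Data

/-- The bound for every excess in `[1/50, 5/2)` at `m = 17`. -/
theorem rangeOk_seventeen : RangeOk 16 (1 / 50) (5 / 2) := by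
  refine rangeOk_cells (l := [cell17A1, cell17A2, cell17A3, cell17B, cell17B2, cell17C, cell17D]) (by norm_num) ?_ (by decide +kernel)
  simp only [List.forall_mem_cons, List.not_mem_nil, IsEmpty.forall_iff, implies_true, and_true]
  exact ⟨cell17A1_ok, cell17A2_ok, cell17A3_ok, cell17B_ok, cell17B2_ok, cell17C_ok, cell17D_ok⟩

end Vale.Agent.P237.All.Finite
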