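import Vale.Agent.P237.All.Finite.Cells.C18A1
import Vale.Agent.P237.All.Finite.Cells.C18A1b
import Vale.Agent.P237.All.Finite.Cells.C18A2
import Vale.Agent.P237.All.Finite.Cells.C18A3
import Vale.Agent.P237.All.Finite.Cells.C18B
import Vale.Agent.P237.All.Finite.Cells.C18B2
import Vale.Agent.P237.All.Finite.Cells.C18C
import Vale.Agent.P237.All.Finite.Cells.C18D

/-! P237, finitely many dimensions: the excesses below `5/2` in dimension eighteen. -/

namespace Vale.Agent.P237.All.Finite

open Data

/-- The bound for every excess in `[1/50, 5/2)` at `m = 18`. -/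
theorem rangeOk_eighteen : RangeOk 17 (1 / 50) (5 / 2) := by
  refine rangeOk_cells (l := [cell18A1, cell18A1b, cell18A2, cell18A3, cell18B, cell18B2, cell18C, cell18D]) (by norm_num) ?_ (by decide +kernel)
  simp only [List.forall_mem_cons, List.not_mem_nil, IsEmpty.forall_iff, implies_true, and_true]
  exact ⟨cell18A1_ok, cell18A1b_ok, cell18A2_ok, cell18A3_ok, cell18B_ok, cell18B2_ok, cell18C_ok, cell18D_ok⟩

end Vale.Agent.P237.All.Finite
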