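import Vale.Agent.P237.All.Finite.Cells.C19A1p
import Vale.Agent.P237.All.Finite.Cells.C19A1b
import Vale.Agent.P237.All.Finite.Cells.C19A2
import Vale.Agent.P237.All.Finite.Cells.C19A3
import Vale.Agent.P237.All.Finite.Cells.C19B
import Vale.Agent.P237.All.Finite.Cells.C19B2
import Vale.Agent.P237.All.Finite.Cells.C19C
import Vale.Agent.P237.All.Finite.Cells.C19D

/-! P237, finitely many dimensions: the excesses below `5/2` in dimension nineteen. -/

namespace Vale.Agent.P237.All.Finite

open Data

/-- The bound for every excess in `[1/50, 5/2)` at `m = 19`. -/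
theorem rangeOk_nineteen : RangeOk 18 (1 / 50) (5 / 2) := by
  refine rangeOk_cells (l := [cell19A1p, cell19A1b, cell19A2, cell19A3, cell19B, cell19B2, cell19C, cell19D]) (by norm_num) ?_ (by decide +kernel)
  simp only [List.forall_mem_cons, List.not_mem_nil, IsEmpty.forall_iff, implies_true, and_true]
  exact ⟨cell19A1p_ok, cell19A1b_ok, cell19A2_ok, cell19A3_ok, cell19B_ok, cell19B2_ok, cell19C_ok, cell19D_ok⟩

end Vale.Agent.P237.All.Finite
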