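import Vale.Agent.P237.All.Finite.Cells.C4B
import Vale.Agent.P237.All.Finite.Cells.C4C
import Vale.Agent.P237.All.Finite.Cells.C4D
import Vale.Agent.P237.All.Finite.Cells.C4E
import Vale.Agent.P237.All.Finite.Cells.C4G
import Vale.Agent.P237.All.Finite.Cells.C4H1
import Vale.Agent.P237.All.Finite.Cells.C4H2
import Vale.Agent.P237.All.Finite.Cells.C4I
import Vale.Agent.P237.All.Finite.Cells.C4J
import Vale.Agent.P237.All.Tiny.ThreeBound

/-! P237, finitely many dimensions: the excesses below `5/2` in dimension four. -/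

namespace Vale.Agent.P237.All.Finite

open Data

/-- The cells of dimension four. -/
theorem rangeOk_four_cells : RangeOk 3 (147 / 5000) (5 / 2) := by
  refine rangeOk_cells
    (l := [cell4G, cell4H1, cell4H2, cell4I, cell4J, cell4B, cell4C, cell4D, cell4E])
    (by norm_num) ?_ (by decide +kernel)
  simp only [List.forall_mem_cons, List.not_mem_nil, IsEmpty.forall_iff, implies_true, and_true]
  exact ⟨cell4G_ok, cell4H1_ok, cell4H2_ok, cell4I_ok, cell4J_ok, cell4B_ok, cell4C_ok, cell4D_ok,
    cell4E_ok⟩

/-- The bound for every excess in `[1/50, 5/2)` at `m = 4`. -/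
theorem rangeOk_four : RangeOk 3 (1 / 50) (5 / 2) := fun k _ h1 => by
  rcases le_total k ((37 / 1250 : ℚ) : ℝ) with h | h
  · exact Transport.Tiny.hasBound_three le_rfl h
  · refine rangeOk_four_cells k (le_trans ?_ h) h1
    exact_mod_cast (by norm_num : (147 / 5000 : ℚ) ≤ 37 / 1250)

end Vale.Agent.P237.All.Finite
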