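import Vale.Agent.P237.All.Finite.Cells.C7A
import Vale.Agent.P237.All.Finite.Cells.C7B
import Vale.Agent.P237.All.Finite.Cells.C7F
import Vale.Agent.P237.All.Finite.Cells.C7G

/-! P237, finitely many dimensions: the excesses below `5/2` in dimension seven. -/

namespace Vale.Agent.P237.All.Finite

open Data

/-- The bound for every excess in `[1/50, 5/2)` at `m = 7`. -/
theorem rangeOk_seven : RangeOk 6 (1 / 50) (5 / 2) := by
  refine rangeOk_cells (l := [cell7A, cell7F, cell7G, cell7B]) (by norm_num) ?_ (by decide +kernel)
  simp only [List.forall_mem_cons, List.not_mem_nil, IsEmpty.forall_iff, implies_true, and_true]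
  exact ⟨cell7A_ok, cell7F_ok, cell7G_ok, cell7B_ok⟩

end Vale.Agent.P237.All.Finite
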