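import Vale.Agent.P237.All.Finite.Cells.C36A
import Vale.Agent.P237.All.Finite.Cells.C36B
import Vale.Agent.P237.All.Finite.Cells.C36C
import Vale.Agent.P237.All.Finite.Cells.C36D

/-! P237, finitely many dimensions: the excesses below `4/5` in dimension thirty-six. -/

namespace Vale.Agent.P237.All.Finite

open Data

/-- The bound for every excess in `[1/80, 4/5)` at `m = 36`. -/
theorem rangeOk_thirtysix : RangeOk 35 (1 / 80) (4 / 5) := by
  refine rangeOk_cells (l := [cell36A, cell36B, cell36C, cell36D]) (by norm_num) ?_ (by decide +kernel)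
  simp only [List.forall_mem_cons, List.not_mem_nil, IsEmpty.forall_iff, implies_true, and_true]
  exact ⟨cell36A_ok, cell36B_ok, cell36C_ok, cell36D_ok⟩

end Vale.Agent.P237.All.Finite
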