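import Vale.Agent.P237.All.Finite.Cells.C4K
import Vale.Agent.P237.All.Finite.Cells.C4L
import Vale.Agent.P237.All.Finite.HighSmall

/-! P237, finitely many dimensions: the excesses from `5/2` to `17` in dimension four. -/

namespace Vale.Agent.P237.All.Finite

open Data

/-- The bound for every excess in `[5/2, 17)` at `m = 4`. -/
theorem rangeOk_top_four : RangeOk 3 (5 / 2) 17 := by
  refine (rangeOk_cells (b := 10) (l := [cell4K, cell4L]) (by norm_num) ?_ (by decide +kernel)).append
    rangeOk_high_four
  simp only [List.forall_mem_cons, List.not_mem_nil, IsEmpty.forall_iff, implies_true, and_true]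
  exact ⟨cell4K_ok, cell4L_ok⟩

end Vale.Agent.P237.All.Finite
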